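import Vale.Agent.Lib.P052.Geometry

/-!
# Partitioning sets with at most `d+4` points
-/

namespace Vale.Agent.Lib.P052

variable {V : Type*} [NormedAddCommGroup V] [InnerProductSpace ℝ V]

/-- all pairwise distances in `K` are smaller than `D` -/
def Short (D : ℝ) (K : Finset V) : Prop := ∀ x ∈ K, ∀ y ∈ K, x ≠ y → dist x y < D

/-- `S` can be coloured with `m` colours such that points of equal colour are at distance `< D` -/
def Good (D : ℝ) (S : Finset V) (m : ℕ) : Prop :=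
  ∃ c : V → ℕ, (∀ x ∈ S, c x < m) ∧ ∀ x ∈ S, ∀ y ∈ S, c x = c y → x ≠ y → dist x y < D

/-- `S` can be coloured with at most `|S| - s` colours -/
def Sav (D : ℝ) (S : Finset V) (s : ℕ) : Prop := ∃ m, Good D S m ∧ m + s ≤ S.card

lemma Good.mono {D : ℝ} {S : Finset V} {m m' : ℕ} (h : Good D S m) (hm : m ≤ m') :
    Good D S m' := by
  obtain ⟨c, h1, h2⟩ := h
  exact ⟨c, fun x hx => (h1 x hx).trans_le hm, h2⟩

lemma sav_zero (D : ℝ) (S : Finset V) : Sav D S 0 := by
  classical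
  refine ⟨S.card, ⟨fun x => if h : x ∈ S then (S.equivFin ⟨x, h⟩ : ℕ) else 0, ?_, ?_⟩, le_rfl⟩
  · intro x hx
    simp only [hx, dif_pos]
    exact (S.equivFin ⟨x, hx⟩).2
  · intro x hx y hy hc hxy
    simp only [hx, hy, dif_pos] at hc
    have := S.equivFin.injective (Fin.ext hc)
    exact absurd (congrArg Subtype.val this) hxy

lemma sav_step [DecidableEq V] {D : ℝ} {S K : Finset V} {s j : ℕ} (hK : K ⊆ S) (hs : Short D K)
    (hj : j + 1 ≤ K.card) (h : Sav D (S \ K) s) : Sav D S (s + j) := by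
  obtain ⟨m, ⟨c, h1, h2⟩, hm⟩ := h
  refine ⟨m + 1, ⟨fun x => if x ∈ K then m else c x, ?_, ?_⟩, ?_⟩
  · intro x hx
    by_cases hxK : x ∈ K
    · simp [hxK]
    · simp only [hxK, if_false]
      exact (h1 x (Finset.mem_sdiff.2 ⟨hx, hxK⟩)).trans (Nat.lt_succ_self m)
  · intro x hx y hy hc hxy
    by_cases hxK : x ∈ K <;> by_cases hyK : y ∈ K
    · exact hs x hxK y hyK hxy
    · simp only [hxK, hyK, if_true, if_false] at hc
      have := h1 y (Finset.mem_sdiff.2 ⟨hy, hyK⟩)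
      omega
    · simp only [hxK, hyK, if_true, if_false] at hc
      have := h1 x (Finset.mem_sdiff.2 ⟨hx, hxK⟩)
      omega
    · simp only [hxK, hyK, if_false] at hc
      exact h2 x (Finset.mem_sdiff.2 ⟨hx, hxK⟩) y (Finset.mem_sdiff.2 ⟨hy, hyK⟩) hc hxy
  · rw [Finset.card_sdiff_of_subset hK] at hm
    have := Finset.card_le_card hK
    omega

lemma short_pair [DecidableEq V] {D : ℝ} {a b : V} (h : dist a b < D) :
    Short D ({a, b} : Finset V) := by
  intro x hx y hy hxy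
  simp only [Finset.mem_insert, Finset.mem_singleton] at hx hy
  rcases hx with rfl | rfl <;> rcases hy with rfl | rfl
  · exact absurd rfl hxy
  · exact h
  · rw [dist_comm]; exact h
  · exact absurd rfl hxy

lemma sav_edge [DecidableEq V] {D : ℝ} {S : Finset V} {s : ℕ} {a b : V} (ha : a ∈ S) (hb : b ∈ S)
    (hab : a ≠ b) (h : dist a b < D) (hS : Sav D (S \ {a, b}) s) : Sav D S (s + 1) := by
  apply sav_step (K := {a, b}) _ (short_pair h) _ hS
  · intro z hz
    simp only [Finset.mem_insert, Finset.mem_singleton] at hz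
    rcases hz with rfl | rfl <;> assumption
  · rw [Finset.card_pair hab]

lemma sav_aug [DecidableEq V] {D : ℝ} {S : Finset V} {s : ℕ} {a b r r' : V}
    (ha : a ∈ S) (hb : b ∈ S) (hr : r ∈ S) (hr' : r' ∈ S) (hab : a ≠ b)
    (hra : r ≠ a) (hrb : r ≠ b) (hra' : r' ≠ a) (hrb' : r' ≠ b)
    (h1 : dist a b < D) (h2 : dist a r < D) (h3 : dist b r' < D)
    (hS : Sav D (S \ {a, b, r, r'}) s) : Sav D S (s + 2) := by
  by_cases hrr : r = r'
  · subst hrr
    have hS' : Sav D (S \ {a, b, r}) s := by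
      have : ({a, b, r, r} : Finset V) = {a, b, r} := by simp
      rwa [this] at hS
    apply sav_step (K := {a, b, r}) _ _ _ hS'
    · intro z hz
      simp only [Finset.mem_insert, Finset.mem_singleton] at hz
      rcases hz with rfl | rfl | rfl <;> assumption
    · intro x hx y hy hxy
      simp only [Finset.mem_insert, Finset.mem_singleton] at hx hy
      rcases hx with rfl | rfl | rfl <;> rcases hy with rfl | rfl | rfl <;>
        first
          | exact absurd rfl hxy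
          | assumption
          | (rw [dist_comm]; assumption)
    · rw [Finset.card_insert_of_notMem (by simp [hab, hra.symm]), Finset.card_pair hrb.symm]
  · have e : (S \ {a, r}) \ {b, r'} = S \ {a, b, r, r'} := by
      ext z
      simp only [Finset.mem_sdiff, Finset.mem_insert, Finset.mem_singleton]
      tauto
    have step1 : Sav D (S \ {a, r}) (s + 1) := by
      apply sav_edge (a := b) (b := r') _ _ hrb'.symm h3
      · rwa [e]
      · simp [hb, hab.symm, hrb.symm]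
      · simp [hr', hra', Ne.symm hrr]
    exact sav_edge ha hr hra.symm h2 step1

variable [FiniteDimensional ℝ V]

lemma exists_short_pair {D : ℝ} {S : Finset V} (hcard : Module.finrank ℝ V + 2 ≤ S.card)
    (hle : ∀ x ∈ S, ∀ y ∈ S, dist x y ≤ D) : ∃ a ∈ S, ∃ b ∈ S, a ≠ b ∧ dist a b < D := by
  by_contra hcon
  push_neg at hcon
  obtain ⟨a, ha, b, hb, hab⟩ := Finset.one_lt_card.1 (by omega : 1 < S.card)
  exact no_almost_equilateral S hcard D a b ha hb hab (hle a ha b hb)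
    (fun x hx y hy hxy _ _ => le_antisymm (hle x hx y hy) (hcon x hx y hy hxy))

lemma sav_two [DecidableEq V] {D : ℝ} {S : Finset V} (hcard : Module.finrank ℝ V + 3 ≤ S.card)
    (hle : ∀ x ∈ S, ∀ y ∈ S, dist x y ≤ D) : Sav D S 2 := by
  obtain ⟨a, ha, b, hb, hab, hdab⟩ := exists_short_pair (by omega) hle
  set R := S \ {a, b} with hR
  have hsub : ({a, b} : Finset V) ⊆ S := by
    intro z hz
    simp only [Finset.mem_insert, Finset.mem_singleton] at hz
    rcases hz with rfl | rfl <;> assumption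
  have hRcard : R.card = S.card - 2 := by
    rw [hR, Finset.card_sdiff_of_subset hsub, Finset.card_pair hab]
  have hRS : ∀ z ∈ R, z ∈ S ∧ z ≠ a ∧ z ≠ b := by
    intro z hz
    simp only [hR, Finset.mem_sdiff, Finset.mem_insert, Finset.mem_singleton, not_or] at hz
    exact ⟨hz.1, hz.2.1, hz.2.2⟩
  by_cases h1 : ∃ u ∈ R, ∃ v ∈ R, u ≠ v ∧ dist u v < D
  · obtain ⟨u, hu, v, hv, huv, hduv⟩ := h1
    exact sav_edge ha hb hab hdab (sav_edge hu hv huv hduv (sav_zero D _))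
  by_cases h2 : (∃ r ∈ R, dist a r < D) ∧ (∃ r ∈ R, dist b r < D)
  · obtain ⟨⟨r, hr, hdr⟩, ⟨r', hr', hdr'⟩⟩ := h2
    exact sav_aug ha hb (hRS r hr).1 (hRS r' hr').1 hab (hRS r hr).2.1 (hRS r hr).2.2
      (hRS r' hr').2.1 (hRS r' hr').2.2 hdab hdr hdr' (sav_zero D _)
  exfalso
  have h3 : ∃ c, (c = a ∨ c = b) ∧ ∀ r ∈ R, ¬ dist c r < D := by
    by_cases h4 : ∃ r ∈ R, dist a r < D
    · refine ⟨b, Or.inr rfl, ?_⟩
      intro r hr hd
      exact h2 ⟨h4, ⟨r, hr, hd⟩⟩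
    · refine ⟨a, Or.inl rfl, ?_⟩
      intro r hr hd
      exact h4 ⟨r, hr, hd⟩
  obtain ⟨c, hc, hcR⟩ := h3
  have hcS : c ∈ S := by rcases hc with rfl | rfl <;> assumption
  have hcnR : c ∉ R := by
    intro hcR'
    have := hRS c hcR'
    rcases hc with rfl | rfl
    · exact this.2.1 rfl
    · exact this.2.2 rfl
  have hYcard : Module.finrank ℝ V + 2 ≤ (insert c R).card := by
    rw [Finset.card_insert_of_notMem hcnR, hRcard]
    omega
  have hYS : ∀ z ∈ insert c R, z ∈ S := by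
    intro z hz
    rcases Finset.mem_insert.1 hz with rfl | hz
    · exact hcS
    · exact (hRS z hz).1
  obtain ⟨u, hu, v, hv, huv, hduv⟩ := exists_short_pair hYcard
    (fun x hx y hy => hle x (hYS x hx) y (hYS y hy))
  rcases Finset.mem_insert.1 hu with rfl | hu' <;> rcases Finset.mem_insert.1 hv with rfl | hv'
  · exact huv rfl
  · exact hcR v hv' hduv
  · exact hcR u hu' (by rwa [dist_comm])
  · exact h1 ⟨u, hu', v, hv', huv, hduv⟩

lemma sav_three [DecidableEq V] {D : ℝ} {S : Finset V} (hcard : Module.finrank ℝ V + 4 ≤ S.card)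
    (hle : ∀ x ∈ S, ∀ y ∈ S, dist x y ≤ D) : Sav D S 3 := by
  obtain ⟨a1, ha1, b1, hb1, hab1, hd1⟩ := exists_short_pair (by omega) hle
  set S1 := S \ {a1, b1} with hS1
  have hsub1 : ({a1, b1} : Finset V) ⊆ S := by
    intro z hz
    simp only [Finset.mem_insert, Finset.mem_singleton] at hz
    rcases hz with rfl | rfl <;> assumption
  have hS1card : S1.card = S.card - 2 := by
    rw [hS1, Finset.card_sdiff_of_subset hsub1, Finset.card_pair hab1]
  have hS1S : ∀ z ∈ S1, z ∈ S ∧ z ≠ a1 ∧ z ≠ b1 := by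
    intro z hz
    simp only [hS1, Finset.mem_sdiff, Finset.mem_insert, Finset.mem_singleton, not_or] at hz
    exact ⟨hz.1, hz.2.1, hz.2.2⟩
  obtain ⟨a2, ha2, b2, hb2, hab2, hd2⟩ := exists_short_pair (S := S1) (D := D) (by omega)
    (fun x hx y hy => hle x (hS1S x hx).1 y (hS1S y hy).1)
  set R := S1 \ {a2, b2} with hR
  have hsub2 : ({a2, b2} : Finset V) ⊆ S1 := by
    intro z hz
    simp only [Finset.mem_insert, Finset.mem_singleton] at hz
    rcases hz with rfl | rfl <;> assumption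
  have hRcard : R.card = S.card - 4 := by
    rw [hR, Finset.card_sdiff_of_subset hsub2, Finset.card_pair hab2, hS1card]
    omega
  have hRS : ∀ z ∈ R, z ∈ S ∧ z ≠ a1 ∧ z ≠ b1 ∧ z ≠ a2 ∧ z ≠ b2 := by
    intro z hz
    simp only [hR, Finset.mem_sdiff, Finset.mem_insert, Finset.mem_singleton, not_or] at hz
    have := hS1S z hz.1
    exact ⟨this.1, this.2.1, this.2.2, hz.2.1, hz.2.2⟩
  have A2 := hS1S a2 ha2
  have B2 := hS1S b2 hb2
  by_cases h1 : ∃ u ∈ R, ∃ v ∈ R, u ≠ v ∧ dist u v < D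
  · obtain ⟨u, hu, v, hv, huv, hduv⟩ := h1
    exact sav_edge ha1 hb1 hab1 hd1 (sav_edge ha2 hb2 hab2 hd2
      (sav_edge hu hv huv hduv (sav_zero D _)))
  by_cases h2 : (∃ r ∈ R, dist a1 r < D) ∧ (∃ r ∈ R, dist b1 r < D)
  · obtain ⟨⟨r, hr, hdr⟩, ⟨r', hr', hdr'⟩⟩ := h2
    have Rr := hRS r hr
    have Rr' := hRS r' hr'
    apply sav_aug (s := 1) ha1 hb1 Rr.1 Rr'.1 hab1 Rr.2.1 Rr.2.2.1 Rr'.2.1 Rr'.2.2.1 hd1 hdr hdr'
    apply sav_edge (s := 0) (a := a2) (b := b2) _ _ hab2 hd2 (sav_zero D _)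
    · simp only [Finset.mem_sdiff, Finset.mem_insert, Finset.mem_singleton, not_or]
      exact ⟨A2.1, A2.2.1, A2.2.2, Rr.2.2.2.1.symm, Rr'.2.2.2.1.symm⟩
    · simp only [Finset.mem_sdiff, Finset.mem_insert, Finset.mem_singleton, not_or]
      exact ⟨B2.1, B2.2.1, B2.2.2, Rr.2.2.2.2.symm, Rr'.2.2.2.2.symm⟩
  by_cases h3 : (∃ r ∈ R, dist a2 r < D) ∧ (∃ r ∈ R, dist b2 r < D)
  · obtain ⟨⟨r, hr, hdr⟩, ⟨r', hr', hdr'⟩⟩ := h3
    have Rr := hRS r hr
    have Rr' := hRS r' hr'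
    apply sav_aug (s := 1) A2.1 B2.1 Rr.1 Rr'.1 hab2 Rr.2.2.2.1 Rr.2.2.2.2 Rr'.2.2.2.1
      Rr'.2.2.2.2 hd2 hdr hdr'
    apply sav_edge (s := 0) (a := a1) (b := b1) _ _ hab1 hd1 (sav_zero D _)
    · simp only [Finset.mem_sdiff, Finset.mem_insert, Finset.mem_singleton, not_or]
      exact ⟨ha1, A2.2.1.symm, B2.2.1.symm, Rr.2.1.symm, Rr'.2.1.symm⟩
    · simp only [Finset.mem_sdiff, Finset.mem_insert, Finset.mem_singleton, not_or]
      exact ⟨hb1, A2.2.2.symm, B2.2.2.symm, Rr.2.2.1.symm, Rr'.2.2.1.symm⟩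
  exfalso
  have pick : ∀ a b : V, ¬ ((∃ r ∈ R, dist a r < D) ∧ (∃ r ∈ R, dist b r < D)) →
      ∃ c, (c = a ∨ c = b) ∧ ∀ r ∈ R, ¬ dist c r < D := by
    intro a b hn
    by_cases h4 : ∃ r ∈ R, dist a r < D
    · exact ⟨b, Or.inr rfl, fun r hr hd => hn ⟨h4, ⟨r, hr, hd⟩⟩⟩
    · exact ⟨a, Or.inl rfl, fun r hr hd => h4 ⟨r, hr, hd⟩⟩
  obtain ⟨c1, hc1, hc1R⟩ := pick a1 b1 h2
  obtain ⟨c2, hc2, hc2R⟩ := pick a2 b2 h3
  have hc1S : c1 ∈ S := by rcases hc1 with rfl | rfl <;> assumption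
  have hc2S : c2 ∈ S := by
    rcases hc2 with rfl | rfl
    · exact A2.1
    · exact B2.1
  have hc12 : c1 ≠ c2 := by
    rcases hc1 with rfl | rfl <;> rcases hc2 with rfl | rfl
    · exact A2.2.1.symm
    · exact B2.2.1.symm
    · exact A2.2.2.symm
    · exact B2.2.2.symm
  have hc1nR : c1 ∉ R := by
    intro h
    have := hRS c1 h
    rcases hc1 with rfl | rfl
    · exact this.2.1 rfl
    · exact this.2.2.1 rfl
  have hc2nR : c2 ∉ R := by
    intro h
    have := hRS c2 h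
    rcases hc2 with rfl | rfl
    · exact this.2.2.2.1 rfl
    · exact this.2.2.2.2 rfl
  set Y := insert c1 (insert c2 R) with hY
  have hYcard : Module.finrank ℝ V + 2 ≤ Y.card := by
    rw [hY, Finset.card_insert_of_notMem (by simp [hc12, hc1nR]),
      Finset.card_insert_of_notMem hc2nR, hRcard]
    omega
  have eqD : ∀ x y : V, x ∈ S → y ∈ S → ¬ dist x y < D → dist x y = D := by
    intro x y hx hy hn
    exact le_antisymm (hle x hx y hy) (not_lt.1 hn)
  refine no_almost_equilateral Y hYcard D c1 c2 (by simp [hY]) (by simp [hY]) hc12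
    (hle c1 hc1S c2 hc2S) ?_
  intro x hx y hy hxy hn1 hn2
  simp only [hY, Finset.mem_insert] at hx hy
  rcases hx with rfl | rfl | hx <;> rcases hy with rfl | rfl | hy
  · exact absurd rfl hxy
  · exact absurd ⟨rfl, rfl⟩ hn1
  · exact eqD _ _ hc1S (hRS y hy).1 (hc1R y hy)
  · exact absurd ⟨rfl, rfl⟩ hn2
  · exact absurd rfl hxy
  · exact eqD _ _ hc2S (hRS y hy).1 (hc2R y hy)
  · rw [dist_comm]; exact eqD _ _ hc1S (hRS x hx).1 (hc1R x hx)
  · rw [dist_comm]; exact eqD _ _ hc2S (hRS x hx).1 (hc2R x hx)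
  · exact eqD _ _ (hRS x hx).1 (hRS y hy).1 (fun hd => h1 ⟨x, hx, y, hy, hxy, hd⟩)

end Vale.Agent.Lib.P052
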