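import Mathlib

/-!
# Almost equilateral sets of `d+2` points do not exist in dimension `d`
-/

open scoped RealInnerProductSpace

namespace Vale.Agent.Lib.P052

variable {V : Type*} [NormedAddCommGroup V] [InnerProductSpace ℝ V]

lemma key_identity (Y : Finset V) (f : V → ℝ) (h0 : ∑ e ∈ Y, f e • e = 0)
    (h1 : ∑ e ∈ Y, f e = 0) :
    ∑ x ∈ Y, ∑ y ∈ Y, f x * f y * dist x y ^ 2 = 0 := by
  have hd : ∀ x y : V, dist x y ^ 2 = ‖x‖ ^ 2 + ‖y‖ ^ 2 - 2 * ⟪x, y⟫ := by
    intro x y
    rw [dist_eq_norm, norm_sub_sq_real]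
    ring
  have e1 : ∑ x ∈ Y, ∑ y ∈ Y, f x * f y * ‖x‖ ^ 2 = 0 := by
    have : ∀ x ∈ Y, ∑ y ∈ Y, f x * f y * ‖x‖ ^ 2 = (f x * ‖x‖ ^ 2) * ∑ y ∈ Y, f y := by
      intro x _
      rw [Finset.mul_sum]
      apply Finset.sum_congr rfl
      intro y _
      ring
    rw [Finset.sum_congr rfl this, h1]
    simp
  have e2 : ∑ x ∈ Y, ∑ y ∈ Y, f x * f y * ‖y‖ ^ 2 = 0 := by
    rw [Finset.sum_comm]
    have : ∀ y ∈ Y, ∑ x ∈ Y, f x * f y * ‖y‖ ^ 2 = (f y * ‖y‖ ^ 2) * ∑ x ∈ Y, f x := by
      intro y _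
      rw [Finset.mul_sum]
      apply Finset.sum_congr rfl
      intro x _
      ring
    rw [Finset.sum_congr rfl this, h1]
    simp
  have e3 : ∑ x ∈ Y, ∑ y ∈ Y, f x * f y * ⟪x, y⟫ = 0 := by
    have : ⟪∑ x ∈ Y, f x • x, ∑ y ∈ Y, f y • y⟫ = ∑ x ∈ Y, ∑ y ∈ Y, f x * f y * ⟪x, y⟫ := by
      rw [sum_inner]
      apply Finset.sum_congr rfl
      intro x _
      rw [inner_sum]
      apply Finset.sum_congr rfl
      intro y _
      rw [real_inner_smul_left, real_inner_smul_right]
      ring
    rw [← this, h0]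
    simp
  have : ∑ x ∈ Y, ∑ y ∈ Y, f x * f y * dist x y ^ 2
      = ∑ x ∈ Y, ∑ y ∈ Y, f x * f y * ‖x‖ ^ 2 + ∑ x ∈ Y, ∑ y ∈ Y, f x * f y * ‖y‖ ^ 2
        - 2 * ∑ x ∈ Y, ∑ y ∈ Y, f x * f y * ⟪x, y⟫ := by
    rw [Finset.mul_sum, ← Finset.sum_add_distrib, ← Finset.sum_sub_distrib]
    apply Finset.sum_congr rfl
    intro x _
    rw [Finset.mul_sum, ← Finset.sum_add_distrib, ← Finset.sum_sub_distrib]
    apply Finset.sum_congr rfl
    intro y _
    rw [hd]
    ring
  rw [this, e1, e2, e3]
  simp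

/-- In a real inner product space of dimension `d`, there is no set `Y` of at least `d+2` points
all of whose pairwise distances equal `D`, except possibly for one pair `a, b` at distance
at most `D`. -/
lemma no_almost_equilateral [FiniteDimensional ℝ V] (Y : Finset V)
    (hcard : Module.finrank ℝ V + 2 ≤ Y.card) (D : ℝ) (a b : V) (ha : a ∈ Y) (hb : b ∈ Y)
    (hab : a ≠ b) (hD : dist a b ≤ D)
    (h : ∀ x ∈ Y, ∀ y ∈ Y, x ≠ y → ¬(x = a ∧ y = b) → ¬(x = b ∧ y = a) → dist x y = D) :
    False := by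
  classical
  obtain ⟨f, h0, h1, x0, hx0, hfx0⟩ :=
    Module.exists_nontrivial_relation_sum_zero_of_finrank_succ_lt_card (R := ℝ) (t := Y)
      (by omega)
  have hkey := key_identity Y f h0 h1
  set s := dist a b with hs
  have hspos : 0 < s := dist_pos.2 hab
  -- pointwise formula for the squared distance
  have hpt : ∀ x ∈ Y, ∀ y ∈ Y, f x * f y * dist x y ^ 2
      = D ^ 2 * (f x * f y) - D ^ 2 * (if x = y then f x * f y else 0)
        - (D ^ 2 - s ^ 2) * (if x = a then (if y = b then f x * f y else 0) else 0)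
        - (D ^ 2 - s ^ 2) * (if x = b then (if y = a then f x * f y else 0) else 0) := by
    intro x hx y hy
    by_cases hxy : x = y
    · subst hxy
      have h1 : ¬ (x = a ∧ x = b) := fun hh => hab (hh.1.symm.trans hh.2)
      by_cases hxa : x = a
      · have hxb : x ≠ b := fun hh => hab (hxa.symm.trans hh)
        simp [hxa, hab]
      · by_cases hxb : x = b
        · simp [hxb, hab.symm]
        · simp [hxa, hxb]
    · by_cases hc1 : x = a ∧ y = b
      · obtain ⟨rfl, rfl⟩ := hc1
        simp [hab, hs]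
        ring
      · by_cases hc2 : x = b ∧ y = a
        · obtain ⟨rfl, rfl⟩ := hc2
          simp [hab.symm, hs, dist_comm]
          ring
        · rw [h x hx y hy hxy hc1 hc2]
          have t1 : (if x = a then (if y = b then f x * f y else 0) else 0) = 0 := by
            by_cases hxa : x = a
            · have : y ≠ b := fun hh => hc1 ⟨hxa, hh⟩
              simp [hxa, this]
            · simp [hxa]
          have t2 : (if x = b then (if y = a then f x * f y else 0) else 0) = 0 := by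
            by_cases hxb : x = b
            · have : y ≠ a := fun hh => hc2 ⟨hxb, hh⟩
              simp [hxb, this]
            · simp [hxb]
          rw [t1, t2]
          simp [hxy]
          ring
  have hsum : ∑ x ∈ Y, ∑ y ∈ Y, f x * f y * dist x y ^ 2
      = D ^ 2 * ((∑ x ∈ Y, f x) * (∑ y ∈ Y, f y)) - D ^ 2 * (∑ x ∈ Y, f x * f x)
        - (D ^ 2 - s ^ 2) * (f a * f b) - (D ^ 2 - s ^ 2) * (f b * f a) := by
    have step : ∀ x ∈ Y, ∑ y ∈ Y, f x * f y * dist x y ^ 2
        = D ^ 2 * (f x * ∑ y ∈ Y, f y) - D ^ 2 * (f x * f x)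
          - (D ^ 2 - s ^ 2) * (if x = a then f x * f b else 0)
          - (D ^ 2 - s ^ 2) * (if x = b then f x * f a else 0) := by
      intro x hx
      rw [Finset.sum_congr rfl (hpt x hx)]
      rw [Finset.sum_sub_distrib, Finset.sum_sub_distrib, Finset.sum_sub_distrib,
        ← Finset.mul_sum, ← Finset.mul_sum, ← Finset.mul_sum, ← Finset.mul_sum,
        ← Finset.mul_sum]
      congr 1
      · congr 1
        · congr 1
          rw [Finset.sum_ite_eq]
          simp [hx]
        · congr 1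
          by_cases hxa : x = a
          · simp only [hxa, if_true]
            rw [Finset.sum_ite_eq']
            simp [hb]
          · simp [hxa]
      · congr 1
        by_cases hxb : x = b
        · simp only [hxb, if_true]
          rw [Finset.sum_ite_eq']
          simp [ha]
        · simp [hxb]
    rw [Finset.sum_congr rfl step]
    rw [Finset.sum_sub_distrib, Finset.sum_sub_distrib, Finset.sum_sub_distrib,
      ← Finset.mul_sum, ← Finset.mul_sum, ← Finset.mul_sum, ← Finset.mul_sum,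
      ← Finset.sum_mul]
    rw [Finset.sum_ite_eq', Finset.sum_ite_eq']
    simp [ha, hb]
  rw [hsum, h1] at hkey
  -- positivity of the sum of squares
  have hsq : f a * f a + f b * f b ≤ ∑ x ∈ Y, f x * f x := by
    have hsub : ({a, b} : Finset V) ⊆ Y := by
      intro z hz
      simp only [Finset.mem_insert, Finset.mem_singleton] at hz
      rcases hz with rfl | rfl <;> assumption
    have := Finset.sum_le_sum_of_subset_of_nonneg (f := fun x => f x * f x) hsub
      (fun i _ _ => mul_self_nonneg _)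
    rwa [Finset.sum_pair hab] at this
  have hpos : 0 < ∑ x ∈ Y, f x * f x := by
    apply Finset.sum_pos' (fun i _ => mul_self_nonneg _)
    exact ⟨x0, hx0, mul_self_pos.2 hfx0⟩
  have hDs : 0 ≤ D ^ 2 - s ^ 2 := by nlinarith
  set SS := ∑ x ∈ Y, f x * f x with hSS
  have h2 : D ^ 2 * SS = -(2 * (D ^ 2 - s ^ 2) * (f a * f b)) := by linarith
  have h3 : -(2 * (f a * f b)) ≤ f a * f a + f b * f b := by nlinarith [sq_nonneg (f a + f b)]
  have h4 : D ^ 2 * SS ≤ (D ^ 2 - s ^ 2) * SS := by
    calc D ^ 2 * SS = (D ^ 2 - s ^ 2) * (-(2 * (f a * f b))) := by rw [h2]; ring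
      _ ≤ (D ^ 2 - s ^ 2) * (f a * f a + f b * f b) := mul_le_mul_of_nonneg_left h3 hDs
      _ ≤ (D ^ 2 - s ^ 2) * SS := mul_le_mul_of_nonneg_left hsq hDs
  have h5 : 0 < s ^ 2 * SS := by positivity
  linarith

end Vale.Agent.Lib.P052
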